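import Mathlib

/-!
# P260, block F: finitely generated amenable linear groups in characteristic zero are virtually
solvable.  Definitions.
-/

namespace Vale.Agent.P260.F

open Matrix

/-- Følner's condition (the definition of the Spec). -/
def Folner (G : Type*) [Group G] : Prop :=
  open scoped Classical in
  ∀ (E : Finset G) (ε : ℝ), 0 < ε → ∃ F : Finset G, F.Nonempty ∧
    ∀ g ∈ E, ((F.image (g * ·) \ F).card : ℝ) ≤ ε * F.card

/-- Every finite-index subgroup spans the matrix algebra. -/
def Str {G K : Type*} [Group G] [Field K] {n : ℕ} (ρ : G →* GL (Fin n) K) : Prop :=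
  ∀ H : Subgroup G, H.FiniteIndex →
    Submodule.span K ((fun g : G => (ρ g : Matrix (Fin n) (Fin n) K)) '' (H : Set G)) = ⊤

end Vale.Agent.P260.F
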