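import Vale.Agent.P260.H573.Places
import Vale.Agent.P260.H191.Dyn
import Vale.Agent.P260.Defs

/-!
# P260, block F: finitely generated amenable linear groups in characteristic zero are virtually
solvable
-/

universe u w

namespace Vale.Agent.P260.F

/-- **Finitely generated amenable linear groups in characteristic zero are virtually solvable.** -/
theorem amenable_linear (K : Type w) [Field K] [CharZero K] (m : ℕ) (G : Type u) [Group G]
    (hfg : Group.FG G) (hF : Folner G) (ρ : G →* Matrix.GeneralLinearGroup (Fin m) K) :
    ∃ H : Subgroup G, H.FiniteIndex ∧ Group.IsSolvable (H.map ρ) :=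
  blockF_of (fun _ _ hF _ ρ hs g a b ha hb hab => dyn hF ρ hs g a b ha hb hab)
    (fun _ _ _ _ hF _ ρ hs g a b ha hb hab => dyn hF ρ hs g a b ha hb hab)
    (fun K => places K) K m G hfg hF ρ

end Vale.Agent.P260.F

namespace Vale.Agent.P260

/-- Block F, in the literal form of the specification. -/
theorem blockF_lit : ∀ (K : Type) [Field K] [CharZero K] (m : ℕ) (G : Type) [Group G],
    Group.FG G → Folner G → ∀ ρ : G →* Matrix.GeneralLinearGroup (Fin m) K,
      ∃ H : Subgroup G, H.FiniteIndex ∧ Group.IsSolvable (H.map ρ) :=
  fun K _ _ m G _ hfg hF ρ => F.amenable_linear K m G hfg hF ρ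

end Vale.Agent.P260
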