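import Mathlib

/-!
# P260, block F: Burnside's theorem over an algebraically closed field
-/

namespace Vale.Agent.P260.F

/-- **Burnside's theorem.** -/
theorem burnside {K V G : Type*} [Field K] [IsAlgClosed K] [AddCommGroup V] [Module K V]
    [FiniteDimensional K V] [Nontrivial V] [Group G] (ρ : G →* Module.End K V) (S : Subgroup G)
    (hirr : ∀ W : Submodule K V, (∀ g ∈ S, ∀ v ∈ W, ρ g v ∈ W) → W = ⊥ ∨ W = ⊤) :
    Submodule.span K ((fun g : G => ρ g) '' (S : Set G)) = ⊤ := by
  classical
  obtain ⟨A, hA⟩ : ∃ A, A = Algebra.adjoin K ((fun g : G => ρ g) '' (S : Set G)) := ⟨_, rfl⟩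
  have hρA : ∀ g ∈ S, ρ g ∈ A := fun g hg => by
    rw [hA]
    exact Algebra.subset_adjoin ⟨g, hg, rfl⟩
  -- submodules over `A` and over `K`
  have hsub : ∀ N : Submodule A V, ∃ W : Submodule K V, ∀ v, v ∈ W ↔ v ∈ N := fun N =>
    ⟨{ carrier := {v | v ∈ N}
       add_mem' := fun ha hb => N.add_mem ha hb
       zero_mem' := N.zero_mem
       smul_mem' := fun c v hv => by
        have h1 : (algebraMap K A c) • v ∈ N := N.smul_mem (algebraMap K A c) hv
        rwa [algebraMap_smul] at h1 }, fun v => Iff.rfl⟩
  have hsmul : ∀ (a : A) (v : V), a • v = (a : Module.End K V) v := fun a v => rfl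
  have hdich : ∀ N : Submodule A V, N = ⊥ ∨ N = ⊤ := by
    intro N
    obtain ⟨W, hW⟩ := hsub N
    rcases hirr W (fun g hg v hv => by
      rw [hW] at hv ⊢
      exact N.smul_mem (⟨_, hρA g hg⟩ : A) hv) with h | h
    · left
      rw [eq_bot_iff]
      intro v hv
      rw [← hW, h, Submodule.mem_bot] at hv
      rw [Submodule.mem_bot]
      exact hv
    · right
      rw [eq_top_iff]
      intro v _
      rw [← hW, h]
      exact Submodule.mem_top
  have hsimple : IsSimpleModule A V := by
    rw [isSimpleModule_iff]
    exact { exists_pair_ne := ⟨⊥, ⊤, bot_ne_top⟩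
            eq_bot_or_eq_top := hdich }
  have hend : ∀ f : Module.End A V, ∃ c : K, ∀ v, f v = c • v := by
    intro f
    obtain ⟨f', hf'⟩ : ∃ f' : Module.End K V, ∀ v, f' v = f v :=
      ⟨{ toFun := f
         map_add' := f.map_add
         map_smul' := fun c v => by
          have h1 : f ((algebraMap K A c) • v) = (algebraMap K A c) • f v :=
            f.map_smul (algebraMap K A c) v
          rwa [algebraMap_smul, algebraMap_smul] at h1 }, fun v => rfl⟩
    obtain ⟨c, hc⟩ := Module.End.exists_eigenvalue f'
    obtain ⟨u, hu⟩ := hc.exists_hasEigenvector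
    let N : Submodule A V :=
      { carrier := {v | f v = c • v}
        add_mem' := fun {a b} ha hb => by
          simp only [Set.mem_setOf_eq] at ha hb ⊢
          rw [map_add, ha, hb, smul_add]
        zero_mem' := by
          simp only [Set.mem_setOf_eq, map_zero, smul_zero]
        smul_mem' := fun a v hv => by
          simp only [Set.mem_setOf_eq] at hv ⊢
          rw [map_smul, hv, hsmul, hsmul, map_smul] }
    have hN : ∀ v, v ∈ N ↔ f v = c • v := fun v => Iff.rfl
    refine ⟨c, fun v => ?_⟩
    rcases hdich N with h | h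
    · exfalso
      have h1 : u ∈ N := by
        rw [hN, ← hf']
        exact hu.apply_eq_smul
      rw [h, Submodule.mem_bot] at h1
      exact hu.2 h1
    · rw [← hN, h]
      exact Submodule.mem_top
  have htop : A = ⊤ := by
    rw [eq_top_iff]
    intro T _
    obtain ⟨F, hF⟩ : ∃ F : Module.End (Module.End A V) V, ∀ v, F v = T v :=
      ⟨{ toFun := fun v => T v
         map_add' := fun u v => map_add T u v
         map_smul' := fun f v => by
          obtain ⟨c, hc⟩ := hend f
          change T (f v) = f (T v)
          rw [hc, hc, map_smul] }, fun v => rfl⟩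
    obtain ⟨a, ha⟩ := jacobson_density F
      (Finset.univ.image fun i => Module.finBasis K V i)
    have h1 : T = (a : Module.End K V) := by
      refine (Module.finBasis K V).ext fun i => ?_
      rw [← hF, ha _ (Finset.mem_image_of_mem _ (Finset.mem_univ i))]
      rfl
    rw [h1]
    exact a.2
  have h3 := Algebra.adjoin_eq_span K ((fun g : G => ρ g) '' (S : Set G))
  have h4 : (Submonoid.closure ((fun g : G => ρ g) '' (S : Set G)) : Set (Module.End K V)) =
      (fun g : G => ρ g) '' (S : Set G) := by
    have h5 : ((fun g : G => ρ g) '' (S : Set G)) =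
        ((S.toSubmonoid.map ρ : Submonoid (Module.End K V)) : Set (Module.End K V)) := rfl
    rw [h5, Submonoid.closure_eq]
  rw [h4, ← hA, htop] at h3
  rw [← h3]
  rfl

end Vale.Agent.P260.F
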