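import Vale.Agent.P260.H573.FolSub
import Vale.Agent.P260.H573.Burnside

/-!
# P260, block F: the induction on the dimension
-/

universe u v w

namespace Vale.Agent.P260.F

section Der

variable {G : Type*} [Group G] {G' : Type*} [Group G']

/-- The derived series of a subgroup, as subgroups of the ambient group. -/
def der (H : Subgroup G) : ℕ → Subgroup G
  | 0 => H
  | n + 1 => ⁅der H n, der H n⁆

theorem der_mono {H K : Subgroup G} (h : H ≤ K) (n : ℕ) : der H n ≤ der K n := by
  induction n with
  | zero => exact h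
  | succ n ih => exact Subgroup.commutator_mono ih ih

theorem der_succ_le (H : Subgroup G) (n : ℕ) : der H (n + 1) ≤ der H n := by
  change ⁅der H n, der H n⁆ ≤ der H n
  rw [Subgroup.commutator_le]
  intro a ha b hb
  exact (der H n).mul_mem ((der H n).mul_mem ((der H n).mul_mem ha hb) ((der H n).inv_mem ha))
    ((der H n).inv_mem hb)

theorem der_anti (H : Subgroup G) {n m : ℕ} (h : n ≤ m) : der H m ≤ der H n := by
  induction m, h using Nat.le_induction with
  | base => exact le_rfl
  | succ m _ ih => exact (der_succ_le H m).trans ih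

theorem map_der (f : G →* G') (H : Subgroup G) (n : ℕ) : (der H n).map f = der (H.map f) n := by
  induction n with
  | zero => rfl
  | succ n ih =>
    change (⁅der H n, der H n⁆ : Subgroup G).map f = ⁅der (H.map f) n, der (H.map f) n⁆
    rw [Subgroup.map_commutator, ih]

theorem derivedSeries_eq (n : ℕ) : derivedSeries G n = der (⊤ : Subgroup G) n := by
  induction n with
  | zero => rfl
  | succ n ih =>
    rw [derivedSeries_succ, ih]
    rfl

end Der

/-- The input of the induction. -/
def Core (K : Type w) [Field K] : Prop :=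
  ∀ (G : Type u) [Group G], Group.FG G → Folner G → ∀ (n : ℕ) (ρ : G →* GL (Fin n) K), Str ρ →
    ∃ H : Subgroup G, H.FiniteIndex ∧ ∀ h ∈ H, ∃ c : K, (ρ h : Matrix (Fin n) (Fin n) K) = c • 1

open scoped commutatorElement in
theorem comm_ker {G M : Type*} [Group G] [Monoid M] (ρ : G →* M) (a b : G)
    (h : ρ a * ρ b = ρ b * ρ a) : ρ ⁅a, b⁆ = 1 := by
  have h1 : ⁅a, b⁆ = (a * b) * (b * a)⁻¹ := by
    rw [commutatorElement_def]
    group
  rw [h1, map_mul, map_mul, h, ← map_mul, ← map_mul, mul_inv_cancel, map_one]

/-- Two endomorphisms acting trivially on `W` and on `V / W` commute. -/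
theorem comm_of_unip {K : Type*} {V : Type*} [Field K] [AddCommGroup V] [Module K V]
    (W : Submodule K V) (a b : Module.End K V) (ha : ∀ v ∈ W, a v = v) (hb : ∀ v ∈ W, b v = v)
    (ha' : ∀ v, a v - v ∈ W) (hb' : ∀ v, b v - v ∈ W) : a * b = b * a := by
  ext v
  change a (b v) = b (a v)
  have h1 : a (b v) = a (b v - v) + a v := by rw [← map_add, sub_add_cancel]
  have h2 : b (a v) = b (a v - v) + b v := by rw [← map_add, sub_add_cancel]
  rw [h1, h2, ha _ (hb' v), hb _ (ha' v)]
  abel

theorem ind {K : Type w} [Field K] [IsAlgClosed K] (hcore : Core.{u, w} K) :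
    ∀ (d : ℕ) (G : Type u) [Group G], Group.FG G → Folner G →
      ∀ (V : Type v) [AddCommGroup V] [Module K V] [FiniteDimensional K V],
        Module.finrank K V = d → ∀ ρ : G →* Module.End K V,
          ∃ H : Subgroup G, H.FiniteIndex ∧ ∃ N : ℕ, ∀ g ∈ der H N, ρ g = 1 := by
  intro d
  induction d using Nat.strong_induction_on with
  | _ d ih =>
  intro G _ hfg hF V _ _ _ hd ρ
  rcases subsingleton_or_nontrivial V with hV | hV
  · exact ⟨⊤, inferInstance, 0, fun g _ => LinearMap.ext fun v => Subsingleton.elim _ _⟩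
  by_cases hred : ∃ H : Subgroup G, H.FiniteIndex ∧ ∃ W : Submodule K V,
      (∀ g ∈ H, ∀ v ∈ W, ρ g v ∈ W) ∧ W ≠ ⊥ ∧ W ≠ ⊤
  · obtain ⟨H, hHfin, W, hW, hWbot, hWtop⟩ := hred
    -- the two smaller representations
    obtain ⟨ρW, hρW⟩ : ∃ ρW : H →* Module.End K W, ∀ (h : H) (v : W),
        ((ρW h v : W) : V) = ρ (h : G) (v : V) :=
      ⟨{ toFun := fun h => (ρ (h : G)).restrict (fun v hv => hW h h.2 v hv)
         map_one' := by
          ext v
          rw [LinearMap.coe_restrict_apply, OneMemClass.coe_one, map_one]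
          rfl
         map_mul' := fun a b => by
          ext v
          rw [LinearMap.coe_restrict_apply, Subgroup.coe_mul, map_mul]
          rfl }, fun h v => rfl⟩
    obtain ⟨ρQ, hρQ⟩ : ∃ ρQ : H →* Module.End K (V ⧸ W), ∀ (h : H) (v : V),
        ρQ h (Submodule.Quotient.mk v) = Submodule.Quotient.mk (ρ (h : G) v) :=
      ⟨{ toFun := fun h => W.mapQ W (ρ (h : G)) (fun v hv => hW h h.2 v hv)
         map_one' := by
          refine LinearMap.ext fun v' => ?_
          induction v' using Submodule.Quotient.induction_on with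
          | _ v =>
          rw [Submodule.mapQ_apply, OneMemClass.coe_one, map_one]
          rfl
         map_mul' := fun a b => by
          refine LinearMap.ext fun v' => ?_
          induction v' using Submodule.Quotient.induction_on with
          | _ v =>
          rw [Module.End.mul_apply, Submodule.mapQ_apply, Submodule.mapQ_apply,
            Submodule.mapQ_apply, Subgroup.coe_mul, map_mul]
          rfl }, fun h v => rfl⟩
    have hfgH : Group.FG H := H.fg_of_index_ne_zero
    have hFH : Folner H := hF.subgroup H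
    have hdW : Module.finrank K W < d := by
      rw [← hd]
      exact Submodule.finrank_lt hWtop
    have hdQ : Module.finrank K (V ⧸ W) < d := by
      have h1 := W.finrank_quotient_add_finrank
      have h2 : 0 < Module.finrank K W := by
        rw [Module.finrank_pos_iff]
        exact (Submodule.nontrivial_iff_ne_bot).2 hWbot
      omega
    obtain ⟨H1, hH1, N1, hN1⟩ := ih _ hdW H hfgH hFH W rfl ρW
    obtain ⟨H2, hH2, N2, hN2⟩ := ih _ hdQ H hfgH hFH (V ⧸ W) rfl ρQ
    refine ⟨(H1 ⊓ H2).map H.subtype, ?_, max N1 N2 + 1, ?_⟩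
    · refine ⟨?_⟩
      rw [Subgroup.index_map_subtype]
      exact Nat.mul_ne_zero (Subgroup.FiniteIndex.index_ne_zero)
        (Subgroup.FiniteIndex.index_ne_zero)
    · have key : ∀ g ∈ der ((H1 ⊓ H2).map H.subtype) (max N1 N2),
          (∀ v ∈ W, ρ g v = v) ∧ (∀ v, ρ g v - v ∈ W) := by
        intro g hg
        rw [← map_der, Subgroup.mem_map] at hg
        obtain ⟨h, hh, rfl⟩ := hg
        have e1 : ρW h = 1 := hN1 h (der_anti H1 (le_max_left _ _)
          (der_mono inf_le_left _ hh))
        have e2 : ρQ h = 1 := hN2 h (der_anti H2 (le_max_right _ _)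
          (der_mono inf_le_right _ hh))
        constructor
        · intro v hv
          have := hρW h ⟨v, hv⟩
          rw [e1] at this
          exact this.symm
        · intro v
          have := hρQ h v
          rw [e2, Module.End.one_apply] at this
          rw [← Submodule.Quotient.eq]
          exact this.symm
      have hle : der ((H1 ⊓ H2).map H.subtype) (max N1 N2 + 1) ≤ ρ.ker := by
        change ⁅der ((H1 ⊓ H2).map H.subtype) (max N1 N2),
          der ((H1 ⊓ H2).map H.subtype) (max N1 N2)⁆ ≤ ρ.ker
        rw [Subgroup.commutator_le]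
        intro a ha b hb
        rw [MonoidHom.mem_ker]
        have hc := comm_of_unip W (ρ a) (ρ b) (key a ha).1 (key b hb).1 (key a ha).2 (key b hb).2
        exact comm_ker ρ a b hc
      intro g hg
      exact (MonoidHom.mem_ker).1 (hle hg)
  · push Not at hred
    -- strongly irreducible
    obtain ⟨n, hn⟩ : ∃ n, n = Module.finrank K V := ⟨_, rfl⟩
    obtain ⟨b⟩ : Nonempty (Module.Basis (Fin n) K V) := by
      rw [hn]
      exact ⟨Module.finBasis K V⟩
    let Φ : Module.End K V ≃ₐ[K] Matrix (Fin n) (Fin n) K := LinearMap.toMatrixAlgEquiv b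
    let ρ' : G →* GL (Fin n) K := (((Φ : Module.End K V →* Matrix (Fin n) (Fin n) K)).comp ρ).toHomUnits
    have hρ' : ∀ g, (ρ' g : Matrix (Fin n) (Fin n) K) = Φ (ρ g) := fun g => rfl
    have hstr : Str ρ' := by
      intro H hH
      have h1 := burnside ρ H (fun W hW => by
        by_contra hcon
        push Not at hcon
        exact hcon.2 (hred H hH W hW hcon.1))
      have h2 : ((fun g : G => (ρ' g : Matrix (Fin n) (Fin n) K)) '' (H : Set G)) =
          Φ.toLinearMap '' ((fun g : G => ρ g) '' (H : Set G)) := by
        rw [Set.image_image]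
        rfl
      rw [h2, Submodule.span_image, h1, Submodule.map_top, LinearMap.range_eq_top]
      exact Φ.surjective
    obtain ⟨H, hH, hsc⟩ := hcore G hfg hF n ρ' hstr
    refine ⟨H, hH, 1, ?_⟩
    have hle : der H 1 ≤ ρ.ker := by
      change ⁅H, H⁆ ≤ ρ.ker
      rw [Subgroup.commutator_le]
      intro a ha b' hb
      rw [MonoidHom.mem_ker]
      obtain ⟨c, hc⟩ := hsc a ha
      have hc' : ρ a = c • 1 := by
        apply Φ.injective
        rw [← hρ', hc, map_smul, map_one]
      have hcomm : ρ a * ρ b' = ρ b' * ρ a := by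
        rw [hc', smul_mul_assoc, mul_smul_comm, one_mul, mul_one]
      exact comm_ker ρ a b' hcomm
    intro g hg
    exact (MonoidHom.mem_ker).1 (hle hg)

end Vale.Agent.P260.F
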