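import Mathlib

/-!
# P260, block F2: extension of embeddings of countable fields
-/

namespace Vale.Agent.P260.F

open Cardinal Polynomial

/-- Extension of embeddings: a countable field, an uncountable algebraically closed target. -/
theorem exists_ext {R K L : Type*} [CommRing R] [Nontrivial R] [Field K] [Countable K] [Field L]
    [IsAlgClosed L] (hL : Uncountable L) (i : R →+* K) (hi : Function.Injective i)
    (j : R →+* L) (hj : Function.Injective j) : ∃ σ : K →+* L, ∀ x, σ (i x) = j x := by
  have hR : Countable R := hi.countable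
  let _ : Algebra R K := i.toAlgebra
  let _ : Algebra R L := j.toAlgebra
  have hK' : FaithfulSMul R K := (faithfulSMul_iff_algebraMap_injective R K).2 hi
  have hL' : FaithfulSMul R L := (faithfulSMul_iff_algebraMap_injective R L).2 hj
  have hdom : IsDomain R := hi.isDomain i
  obtain ⟨ι, x, hx⟩ := exists_isTranscendenceBasis' R K
  obtain ⟨κ, y, hy⟩ := exists_isTranscendenceBasis' R L
  have hι : Countable ι := hx.1.injective.countable
  have hκ : Infinite κ := by
    by_contra hcon
    rw [not_infinite_iff_finite] at hcon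
    have h1 := IsAlgClosed.cardinal_eq_cardinal_transcendence_basis_of_aleph0_lt y hy
      (Cardinal.mk_le_aleph0_iff.2 hR) (by
        rw [← not_le, Cardinal.mk_le_aleph0_iff]
        exact not_countable)
    have h2 : Cardinal.lift #κ < ℵ₀ := by
      rw [Cardinal.lift_lt_aleph0]
      exact Cardinal.mk_lt_aleph0_iff.2 hcon
    rw [← h1, Cardinal.lift_lt_aleph0, Cardinal.mk_lt_aleph0_iff] at h2
    exact not_countable (α := L) inferInstance
  obtain ⟨e1, he1⟩ := exists_injective_nat ι
  let e : ι → κ := fun a => Infinite.natEmbedding κ (e1 a)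
  have he : Function.Injective e := (Infinite.natEmbedding κ).injective.comp he1
  have hz : AlgebraicIndependent R (y ∘ e) := hy.1.comp e he
  let ψ : Algebra.adjoin R (Set.range x) →ₐ[R] L :=
    (MvPolynomial.aeval (y ∘ e)).comp (hx.1.aevalEquiv.symm : _ →ₐ[R] _)
  have hψ : Function.Injective ψ := by
    have h1 : Function.Injective (MvPolynomial.aeval (R := R) (y ∘ e)) := hz
    exact h1.comp hx.1.aevalEquiv.symm.injective
  let _ : Algebra (Algebra.adjoin R (Set.range x)) L := ψ.toRingHom.toAlgebra
  have hf : FaithfulSMul (Algebra.adjoin R (Set.range x)) L :=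
    (faithfulSMul_iff_algebraMap_injective _ _).2 hψ
  have halg : Algebra.IsAlgebraic (Algebra.adjoin R (Set.range x)) K := hx.isAlgebraic
  let σ : K →ₐ[Algebra.adjoin R (Set.range x)] L := IsAlgClosed.lift
  refine ⟨σ.toRingHom, fun r => ?_⟩
  change σ (algebraMap R K r) = _
  have h1 : algebraMap R K r = algebraMap (Algebra.adjoin R (Set.range x)) K
      (algebraMap R (Algebra.adjoin R (Set.range x)) r) := rfl
  rw [h1, AlgHom.commutes]
  exact ψ.commutes r

theorem uncountable_of_nnf (L : Type*) [NontriviallyNormedField L] [CompleteSpace L] :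
    Uncountable L := by
  rw [← not_countable_iff, ← Cardinal.mk_le_aleph0_iff, not_le]
  exact lt_of_lt_of_le Cardinal.aleph0_lt_continuum
    (continuum_le_cardinal_of_nontriviallyNormedField L)

/-- Transcendental elements can be made large. -/
theorem isAlgebraic_of_bdd {K : Type*} [Field K] [CharZero K] [Countable K] (t : K) (B : ℝ)
    (h : ∀ σ : K →+* ℂ, ‖σ t‖ ≤ B) : IsAlgebraic ℚ t := by
  by_contra ht
  have ht' : Transcendental ℚ t := ht
  -- a large transcendental complex number
  obtain ⟨τ, hτ, hτB⟩ : ∃ τ : ℂ, Transcendental ℚ τ ∧ B < ‖τ‖ := by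
    obtain ⟨τ, hτ⟩ : ∃ τ : ℂ, Transcendental ℚ τ := by
      by_contra hcon
      push Not at hcon
      have h1 := Algebraic.countable ℚ ℂ
      have h2 : {x : ℂ | IsAlgebraic ℚ x} = Set.univ := by
        ext x
        simp only [Set.mem_ofPred_eq, Set.mem_univ, iff_true]
        exact not_not.1 (hcon x)
      rw [h2, Set.countable_univ_iff] at h1
      exact (not_countable_iff.2 (uncountable_of_nnf ℂ)) h1
    have hτ0 : 0 < ‖τ‖ := by
      rw [norm_pos_iff]
      rintro rfl
      exact hτ isAlgebraic_zero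
    obtain ⟨m, hm⟩ := exists_nat_gt (B / ‖τ‖)
    have hm1 : B / ‖τ‖ < (m + 1 : ℕ) := by
      push_cast
      linarith
    refine ⟨((m + 1 : ℕ) : ℂ) * τ, ?_, ?_⟩
    · intro hal
      apply hτ
      have h3 : IsAlgebraic ℚ ((((m + 1 : ℕ) : ℂ))⁻¹) := by
        have := isAlgebraic_algebraMap (R := ℚ) (A := ℂ) (((m + 1 : ℕ) : ℚ)⁻¹)
        simpa using this
      have h4 := h3.mul hal
      have h5 : ((m + 1 : ℕ) : ℂ) ≠ 0 := Nat.cast_ne_zero.2 (Nat.succ_ne_zero m)
      rwa [inv_mul_cancel_left₀ h5] at h4
    · rw [norm_mul, Complex.norm_natCast]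
      rwa [div_lt_iff₀ hτ0] at hm1
  obtain ⟨σ, hσ⟩ := exists_ext (R := ℚ[X]) (K := K) (L := ℂ)
    (uncountable_of_nnf ℂ)
    ((aeval t).toRingHom) (transcendental_iff_injective.1 ht') ((aeval τ).toRingHom)
    (transcendental_iff_injective.1 hτ)
  have h1 := hσ X
  have h2 : (aeval t).toRingHom (X : ℚ[X]) = t := aeval_X t
  have h3 : (aeval τ).toRingHom (X : ℚ[X]) = τ := aeval_X τ
  rw [h2, h3] at h1
  have := h σ
  rw [h1] at this
  linarith

end Vale.Agent.P260.F
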