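import Vale.Agent.P260.H573.Defs

/-!
# P260, block F: the Følner condition passes to subgroups
-/

namespace Vale.Agent.P260.F

open scoped Classical in
theorem Folner.subgroup {G : Type*} [Group G] (hF : Folner G) (H : Subgroup G) : Folner H := by
  intro E ε hε
  obtain ⟨N, hN⟩ : ∃ N : ℝ, N = (E.card : ℝ) + 1 := ⟨_, rfl⟩
  have hN0 : 0 < N := by rw [hN]; positivity
  obtain ⟨F, hFne, hFE⟩ := hF (E.image (fun h : H => (h : G))) (ε / N) (by positivity)
  -- the partition into right cosets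
  let q : G → Quotient (QuotientGroup.rightRel H) := fun x => Quotient.mk _ x
  have hq : ∀ x y : G, q x = q y ↔ y * x⁻¹ ∈ H := by
    intro x y
    rw [show q x = q y ↔ _ from Quotient.eq, QuotientGroup.rightRel_apply]
  have hqh : ∀ (h : H) (x : G), q ((h : G) * x) = q x := by
    intro h x
    rw [hq]
    have : x * ((h : G) * x)⁻¹ = ((h⁻¹ : H) : G) := by
      rw [mul_inv_rev, mul_inv_cancel_left, Subgroup.coe_inv]
    rw [this]
    exact (h⁻¹).2
  let P := fun t => F.filter (fun x => q x = t)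
  have hPcard : ∑ t ∈ F.image q, ((P t).card : ℝ) = F.card := by
    have := Finset.card_eq_sum_card_image q F
    rw [this]
    push_cast
    rfl
  -- pigeonhole
  have hex : ∃ t ∈ F.image q, ∀ g ∈ E,
      ((((P t).image ((g : G) * ·)) \ (P t)).card : ℝ) ≤ ε * (P t).card := by
    by_contra hcon
    push Not at hcon
    have h1 : ∀ t ∈ F.image q, ε * (P t).card <
        ∑ g ∈ E, ((((P t).image ((g : G) * ·)) \ (P t)).card : ℝ) := by
      intro t ht
      obtain ⟨g, hg, hlt⟩ := hcon t ht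
      refine lt_of_lt_of_le hlt ?_
      exact Finset.single_le_sum
        (f := fun g : H => ((((P t).image ((g : G) * ·)) \ (P t)).card : ℝ))
        (fun _ _ => Nat.cast_nonneg _) hg
    have h2 : ε * F.card < ∑ t ∈ F.image q,
        ∑ g ∈ E, ((((P t).image ((g : G) * ·)) \ (P t)).card : ℝ) := by
      rw [← hPcard, Finset.mul_sum]
      exact Finset.sum_lt_sum_of_nonempty (hFne.image q) h1
    rw [Finset.sum_comm] at h2
    have h3 : ∀ g ∈ E, ∑ t ∈ F.image q, ((((P t).image ((g : G) * ·)) \ (P t)).card : ℝ) ≤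
        ε / N * F.card := by
      intro g hg
      refine le_trans ?_ (hFE (g : G) (Finset.mem_image_of_mem _ hg))
      rw [← Nat.cast_sum, Nat.cast_le]
      have h4 : ∀ t, ((P t).image ((g : G) * ·)) \ (P t) =
          ((F.image ((g : G) * ·)) \ F).filter (fun x => q x = t) := by
        intro t
        ext x
        simp only [P, Finset.mem_sdiff, Finset.mem_image, Finset.mem_filter]
        constructor
        · rintro ⟨⟨y, ⟨hy, hyt⟩, rfl⟩, hx⟩
          have : q ((g : G) * y) = t := by rw [hqh, hyt]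
          exact ⟨⟨⟨y, hy, rfl⟩, fun h => hx ⟨h, this⟩⟩, this⟩
        · rintro ⟨⟨⟨y, hy, rfl⟩, hx⟩, hxt⟩
          rw [hqh] at hxt
          exact ⟨⟨y, ⟨hy, hxt⟩, rfl⟩, fun h => hx h.1⟩
      simp only [h4]
      rw [Finset.sum_card_fiberwise_eq_card_filter]
      exact Finset.card_filter_le _ _
    have h5 : ∑ g ∈ E, ∑ t ∈ F.image q, ((((P t).image ((g : G) * ·)) \ (P t)).card : ℝ) ≤
        E.card * (ε / N * F.card) := by
      refine le_trans (Finset.sum_le_sum h3) ?_
      rw [Finset.sum_const, nsmul_eq_mul]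
    have h6 : (E.card : ℝ) * (ε / N * F.card) ≤ ε * F.card := by
      have : (E.card : ℝ) * (ε / N * F.card) = (E.card / N) * (ε * F.card) := by ring
      rw [this]
      have h7 : (E.card : ℝ) / N ≤ 1 := by
        rw [div_le_one hN0, hN]
        linarith
      have h8 : 0 ≤ ε * (F.card : ℝ) := by positivity
      nlinarith
    linarith
  obtain ⟨t, ht, hE⟩ := hex
  obtain ⟨x₀, hx₀F, hx₀⟩ := Finset.mem_image.1 ht
  have hx₀P : x₀ ∈ P t := Finset.mem_filter.2 ⟨hx₀F, hx₀⟩
  let F' : Finset H := ((P t).image (· * x₀⁻¹)).subtype (· ∈ H)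
  have hmem : ∀ x : H, x ∈ F' ↔ (x : G) * x₀ ∈ P t := by
    intro x
    simp only [F', Finset.mem_subtype, Finset.mem_image]
    constructor
    · rintro ⟨y, hy, hyx⟩
      rw [← hyx, inv_mul_cancel_right]
      exact hy
    · intro h
      exact ⟨_, h, by rw [mul_inv_cancel_right]⟩
  have hPt : ∀ y ∈ P t, y * x₀⁻¹ ∈ H := by
    intro y hy
    rw [← hq, hx₀, (Finset.mem_filter.1 hy).2]
  have hcard : F'.card = (P t).card := by
    refine Finset.card_bij (fun x _ => (x : G) * x₀) (fun x hx => (hmem x).1 hx) ?_ ?_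
    · intro a _ b _ hab
      exact Subtype.ext (mul_right_cancel hab)
    · intro y hy
      exact ⟨⟨y * x₀⁻¹, hPt y hy⟩, (hmem _).2 (by simpa using hy), by simp⟩
  refine ⟨F', ⟨1, (hmem 1).2 (by simpa using hx₀P)⟩, fun g hg => ?_⟩
  have hcard2 : ∀ [DecidableEq H], ((F'.image (g * ·)) \ F').card =
      (((P t).image ((g : G) * ·)) \ (P t)).card := by
    intro inst
    refine Finset.card_bij (fun x _ => (x : G) * x₀) ?_ ?_ ?_
    · intro x hx
      rw [Finset.mem_sdiff, Finset.mem_image] at hx ⊢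
      obtain ⟨⟨y, hy, rfl⟩, hx2⟩ := hx
      refine ⟨⟨(y : G) * x₀, (hmem y).1 hy, by simp [mul_assoc]⟩, fun h => hx2 ((hmem _).2 h)⟩
    · intro a _ b _ hab
      exact Subtype.ext (mul_right_cancel hab)
    · intro z hz
      rw [Finset.mem_sdiff, Finset.mem_image] at hz
      obtain ⟨⟨y, hy, rfl⟩, hz2⟩ := hz
      have hgy : (g : G) * y * x₀⁻¹ = ((g * ⟨y * x₀⁻¹, hPt y hy⟩ : H) : G) := by
        simp [mul_assoc]
      refine ⟨g * ⟨y * x₀⁻¹, hPt y hy⟩, ?_, ?_⟩
      · rw [Finset.mem_sdiff, Finset.mem_image]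
        refine ⟨⟨⟨y * x₀⁻¹, hPt y hy⟩, (hmem _).2 (by simpa using hy), rfl⟩, fun h => hz2 ?_⟩
        have := (hmem _).1 h
        simpa [mul_assoc] using this
      · simp [mul_assoc]
  rw [hcard]
  exact le_trans (Nat.cast_le.2 (le_of_eq
    (@hcard2 (fun a b => Classical.propDecidable (a = b))))) (hE g hg)

end Vale.Agent.P260.F
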