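import Vale.Agent.P260.H573.Ext

/-!
# P260, block F2: algebraic numbers bounded at all finite places are integral
-/

namespace Vale.Agent.P260.F

open Cardinal Polynomial

theorem not_norm_le_one (p : ℕ) [Fact p.Prime] (q : ℚ) (hq : p ∣ q.den) :
    ¬ ‖(q : ℚ_[p])‖ ≤ 1 := by
  intro h
  have h1 : (q : ℚ_[p]) * (q.den : ℚ_[p]) = (q.num : ℚ_[p]) := by
    have := Rat.mul_den_eq_num q
    have h2 : ((q * (q.den : ℚ) : ℚ) : ℚ_[p]) = ((q.num : ℚ) : ℚ_[p]) := by rw [this]
    push_cast at h2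
    exact h2
  have h2 : ‖((q.den : ℤ) : ℚ_[p])‖ < 1 := by
    rw [Padic.norm_intCast_lt_one_iff]
    exact_mod_cast hq
  have h3 : ‖(q.num : ℚ_[p])‖ < 1 := by
    rw [← h1, norm_mul]
    have h4 : ‖((q.den : ℤ) : ℚ_[p])‖ = ‖((q.den : ℕ) : ℚ_[p])‖ := by
      congr 1
    rw [h4] at h2
    calc ‖(q : ℚ_[p])‖ * ‖((q.den : ℕ) : ℚ_[p])‖ ≤ 1 * ‖((q.den : ℕ) : ℚ_[p])‖ :=
          mul_le_mul_of_nonneg_right h (norm_nonneg _)
      _ < 1 := by rw [one_mul]; exact h2
  rw [Padic.norm_intCast_lt_one_iff] at h3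
  have h5 : p ∣ q.num.natAbs := Int.natCast_dvd.1 h3
  have h6 : p ∣ Nat.gcd q.num.natAbs q.den := Nat.dvd_gcd h5 hq
  rw [q.reduced.gcd_eq_one] at h6
  exact (Fact.out : p.Prime).one_lt.ne' (Nat.dvd_one.1 h6)

/-- coefficients of a product of linear factors with small roots -/
theorem coeff_le_one {L : Type*} [NormedField L] [IsUltrametricDist L] (s : Multiset L)
    (hs : ∀ r ∈ s, ‖r‖ ≤ 1) (i : ℕ) : ‖((s.map fun r => X - C r).prod).coeff i‖ ≤ 1 := by
  induction s using Multiset.induction_on generalizing i with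
  | empty =>
    rw [Multiset.map_zero, Multiset.prod_zero, coeff_one]
    split_ifs
    · rw [norm_one]
    · rw [norm_zero]; exact zero_le_one
  | cons r s ih =>
    rw [Multiset.map_cons, Multiset.prod_cons, sub_mul, coeff_sub, coeff_C_mul]
    have h1 := ih fun r' hr' => hs r' (Multiset.mem_cons_of_mem hr')
    have h2 : ‖r * ((s.map fun r => X - C r).prod).coeff i‖ ≤ 1 := by
      rw [norm_mul]
      exact mul_le_one₀ (hs r (Multiset.mem_cons_self _ _)) (norm_nonneg _) (h1 i)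
    have h3 : ‖(X * (s.map fun r => X - C r).prod).coeff i‖ ≤ 1 := by
      rcases i with _ | i
      · rw [coeff_X_mul_zero, norm_zero]
        exact zero_le_one
      · rw [coeff_X_mul]
        exact h1 i
    rw [sub_eq_add_neg]
    refine (IsUltrametricDist.norm_add_le_max _ _).trans (max_le h3 ?_)
    rwa [norm_neg]

theorem isIntegral_of_padic {K : Type*} [Field K] [CharZero K] [Countable K] (t : K)
    (halg : IsAlgebraic ℚ t)
    (h : ∀ (p : ℕ) [Fact p.Prime] (σ : K →+* PadicAlgCl p), ‖σ t‖ ≤ 1) : IsIntegral ℤ t := by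
  have hint : IsIntegral ℚ t := halg.isIntegral
  obtain ⟨f, hf⟩ : ∃ f, f = minpoly ℚ t := ⟨_, rfl⟩
  have hfm : f.Monic := by rw [hf]; exact minpoly.monic hint
  have hfi : Irreducible f := by rw [hf]; exact minpoly.irreducible hint
  have hft : aeval t f = 0 := by rw [hf]; exact minpoly.aeval ℚ t
  by_contra hni
  -- a non-integral coefficient
  obtain ⟨i, hi⟩ : ∃ i, ∀ z : ℤ, (Int.castRingHom ℚ) z ≠ f.coeff i := by
    by_contra hcon
    push Not at hcon
    obtain ⟨g, hg, -, hgm⟩ := lifts_and_natDegree_eq_and_monic (f := Int.castRingHom ℚ) (p := f)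
      ((lifts_iff_coeff_lifts (f := Int.castRingHom ℚ) f).2 hcon) hfm
    apply hni
    refine ⟨g, hgm, ?_⟩
    rw [← hft, ← hg, aeval_def, eval₂_map]
    congr 1
    exact Subsingleton.elim _ _
  have hden : (f.coeff i).den ≠ 1 := by
    intro h1
    exact hi (f.coeff i).num (Rat.coe_int_num_of_den_eq_one h1)
  obtain ⟨p, hp, hpd⟩ := Nat.exists_prime_and_dvd hden
  have hpf : Fact p.Prime := ⟨hp⟩
  have hbig : ¬ ‖(algebraMap ℚ (PadicAlgCl p)) (f.coeff i)‖ ≤ 1 := by
    have h1 : (algebraMap ℚ (PadicAlgCl p)) (f.coeff i) =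
        algebraMap ℚ_[p] (PadicAlgCl p) ((f.coeff i : ℚ) : ℚ_[p]) := by
      have h2 : (algebraMap ℚ (PadicAlgCl p)) =
          (algebraMap ℚ_[p] (PadicAlgCl p)).comp (algebraMap ℚ ℚ_[p]) := Subsingleton.elim _ _
      rw [h2]
      rfl
    rw [h1]
    have h3 := PadicAlgCl.norm_extends p ((f.coeff i : ℚ) : ℚ_[p])
    rw [h3]
    exact not_norm_le_one p _ hpd
  -- a large root
  obtain ⟨r, hr, hr1⟩ : ∃ r : PadicAlgCl p, aeval r f = 0 ∧ 1 < ‖r‖ := by
    by_contra hcon
    push Not at hcon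
    apply hbig
    obtain ⟨F, hF⟩ : ∃ F, F = f.map (algebraMap ℚ (PadicAlgCl p)) := ⟨_, rfl⟩
    have hFm : F.Monic := by rw [hF]; exact hfm.map _
    have hsplit : (F.roots.map fun r => X - C r).prod = F :=
      (IsAlgClosed.splits F).eq_prod_roots_of_monic hFm |>.symm
    have h2 := coeff_le_one F.roots (fun r hr => by
      apply hcon
      rw [mem_roots hFm.ne_zero, IsRoot.def, hF, eval_map] at hr
      exact hr) i
    rw [hsplit, hF, coeff_map] at h2
    exact h2
  have hfact : Fact (Irreducible f) := ⟨hfi⟩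
  obtain ⟨σ, hσ⟩ := exists_ext (R := AdjoinRoot f) (K := K) (L := PadicAlgCl p) (by
      have hu : Uncountable ℚ_[p] := uncountable_of_nnf ℚ_[p]
      exact (algebraMap ℚ_[p] (PadicAlgCl p)).injective.uncountable)
    (AdjoinRoot.lift (algebraMap ℚ K) t (by rw [← hft]; rfl)) (RingHom.injective _)
    (AdjoinRoot.lift (algebraMap ℚ (PadicAlgCl p)) r (by rw [← hr]; rfl)) (RingHom.injective _)
  have h1 := hσ (AdjoinRoot.root f)
  rw [AdjoinRoot.lift_root, AdjoinRoot.lift_root] at h1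
  have h2 := h p σ
  rw [h1] at h2
  exact absurd h2 (not_le.2 hr1)

/-- Elements of a number field inside a countable field `K`, bounded at all places of `K`: they
form a finite set. -/
theorem finite_bdd {K : Type*} [Field K] [CharZero K] [Countable K] (F : IntermediateField ℚ K)
    [FiniteDimensional ℚ F] (B : ℝ) :
    {t : F | (∀ σ : K →+* ℂ, ‖σ (t : K)‖ ≤ B) ∧
      ∀ (p : ℕ) [Fact p.Prime] (σ : K →+* PadicAlgCl p), ‖σ (t : K)‖ ≤ 1}.Finite := by
  have hnf : NumberField F := { to_charZero := inferInstance, to_finiteDimensional := inferInstance }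
  refine (NumberField.Embeddings.finite_of_norm_le F ℂ B).subset ?_
  rintro t ⟨h1, h2⟩
  refine ⟨?_, fun φ => ?_⟩
  · have h3 := isIntegral_of_padic (t : K) (isAlgebraic_of_bdd (t : K) B h1) h2
    exact (isIntegral_algebraMap_iff (algebraMap F K).injective).1 h3
  · obtain ⟨σ, hσ⟩ := exists_ext (R := F) (K := K) (L := ℂ) (uncountable_of_nnf ℂ)
      (algebraMap F K) (algebraMap F K).injective φ φ.injective
    have h3 := h1 σ
    have h4 := hσ t
    rw [← h4]
    exact h3

end Vale.Agent.P260.F
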