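import Vale.Agent.P260.H573.Ind

/-!
# P260, block F: transfer along field embeddings, reduction to a countable algebraically closed
field, and the assembly from the two analytic inputs
-/

universe u v w

namespace Vale.Agent.P260.F

open Matrix

/-! ### transfer of `Str` -/

theorem map_mem_span {K L : Type*} [Field K] [Field L] (σ : K →+* L) {n : ℕ}
    (S : Set (Matrix (Fin n) (Fin n) K)) {M : Matrix (Fin n) (Fin n) K}
    (hM : M ∈ Submodule.span K S) :
    M.map σ ∈ Submodule.span L ((fun A : Matrix (Fin n) (Fin n) K => A.map σ) '' S) := by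
  induction hM using Submodule.span_induction with
  | mem x hx => exact Submodule.subset_span ⟨x, hx, rfl⟩
  | zero =>
    rw [Matrix.map_zero _ (map_zero σ)]
    exact Submodule.zero_mem _
  | add x y _ _ hx hy =>
    rw [Matrix.map_add _ (map_add σ)]
    exact Submodule.add_mem _ hx hy
  | smul a x _ hx =>
    have : (a • x).map σ = σ a • x.map σ := by
      ext i j
      simp
    rw [this]
    exact Submodule.smul_mem _ _ hx

theorem span_map_top {K L : Type*} [Field K] [Field L] (σ : K →+* L) {n : ℕ}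
    (S : Set (Matrix (Fin n) (Fin n) K)) (hS : Submodule.span K S = ⊤) :
    Submodule.span L ((fun A : Matrix (Fin n) (Fin n) K => A.map σ) '' S) = ⊤ := by
  rw [eq_top_iff]
  intro M _
  rw [Matrix.matrix_eq_sum_single M]
  refine Submodule.sum_mem _ fun i _ => Submodule.sum_mem _ fun j _ => ?_
  have h1 : Matrix.single i j (M i j) = M i j • (Matrix.single i j (1 : K)).map σ := by
    ext a b
    simp only [Matrix.single, Matrix.of_apply, Matrix.map_apply, Matrix.smul_apply, smul_eq_mul]
    split_ifs <;> simp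
  rw [h1]
  refine Submodule.smul_mem _ _ (map_mem_span σ S ?_)
  rw [hS]
  exact Submodule.mem_top

theorem Str.map {G K L : Type*} [Group G] [Field K] [Field L] (σ : K →+* L) {n : ℕ}
    {ρ : G →* GL (Fin n) K} (h : Str ρ) : Str ((Matrix.GeneralLinearGroup.map σ).comp ρ) := by
  intro H hH
  have h1 := span_map_top σ _ (h H hH)
  rw [Set.image_image] at h1
  exact h1

/-! ### the two inputs -/

/-- Input F1, dynamics. -/
def Dyn (L : Type w) [NormedField L] : Prop :=
  ∀ (G : Type u) [Group G], Folner G → ∀ (n : ℕ) (ρ : G →* GL (Fin n) L), Str ρ →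
    ∀ (g : G) (a b : L), (ρ g : Matrix (Fin n) (Fin n) L).charpoly.IsRoot a →
      (ρ g : Matrix (Fin n) (Fin n) L).charpoly.IsRoot b → ‖a‖ ≠ ‖b‖ → False

/-- Input F2, places. -/
def Places (K : Type w) [Field K] : Prop :=
  ∀ (G : Type u) [Group G], Group.FG G → ∀ (n : ℕ) (ρ : G →* GL (Fin n) K),
    Submodule.span K (Set.range fun g : G => (ρ g : Matrix (Fin n) (Fin n) K)) = ⊤ →
    (∀ (s : K →+* ℂ) (g : G) (a b : K), (ρ g : Matrix (Fin n) (Fin n) K).charpoly.IsRoot a →
      (ρ g : Matrix (Fin n) (Fin n) K).charpoly.IsRoot b → ‖s a‖ = ‖s b‖) →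
    (∀ (p : ℕ) [Fact p.Prime] (s : K →+* PadicAlgCl p) (g : G) (a b : K),
      (ρ g : Matrix (Fin n) (Fin n) K).charpoly.IsRoot a →
      (ρ g : Matrix (Fin n) (Fin n) K).charpoly.IsRoot b → ‖s a‖ = ‖s b‖) →
    ∃ H : Subgroup G, H.FiniteIndex ∧
      ∀ h ∈ H, ∃ c : K, (ρ h : Matrix (Fin n) (Fin n) K) = c • 1

theorem root_map {K L : Type*} [Field K] [Field L] (σ : K →+* L) {n : ℕ}
    (M : Matrix (Fin n) (Fin n) K) {a : K} (ha : M.charpoly.IsRoot a) :
    (M.map σ).charpoly.IsRoot (σ a) := by
  rw [Matrix.charpoly_map]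
  exact ha.map

theorem core_of {K : Type w} [Field K] (hC : Dyn.{u, 0} ℂ)
    (hp : ∀ (p : ℕ) [Fact p.Prime], Dyn.{u, 0} (PadicAlgCl p)) (hpl : Places.{u, w} K) :
    Core.{u, w} K := by
  intro G _ hfg hF n ρ hstr
  have hsp : Submodule.span K (Set.range fun g : G => (ρ g : Matrix (Fin n) (Fin n) K)) = ⊤ := by
    have := hstr ⊤ inferInstance
    rw [Subgroup.coe_top, Set.image_univ] at this
    exact this
  refine hpl G hfg n ρ hsp ?_ ?_
  · intro s g a b ha hb
    by_contra hne
    exact hC G hF n _ (hstr.map s) g (s a) (s b) (root_map s _ ha) (root_map s _ hb) hne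
  · intro p _ s g a b ha hb
    by_contra hne
    exact hp p G hF n _ (hstr.map s) g (s a) (s b) (root_map s _ ha) (root_map s _ hb) hne

/-! ### solvability of the image -/

theorem solv_of_der {G G' : Type*} [Group G] [Group G'] (ρ : G →* G') (H : Subgroup G) (N : ℕ)
    (h : ∀ g ∈ der H N, ρ g = 1) : Group.IsSolvable (H.map ρ) := by
  refine ⟨N, ?_⟩
  rw [derivedSeries_eq, eq_bot_iff]
  intro x hx
  have h1 : (x : G') ∈ (der (⊤ : Subgroup (H.map ρ)) N).map (H.map ρ).subtype :=
    ⟨x, hx, rfl⟩
  rw [map_der, ← MonoidHom.range_eq_map, Subgroup.range_subtype, ← map_der] at h1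
  obtain ⟨g, hg, hgx⟩ := h1
  rw [Subgroup.mem_bot]
  apply Subtype.ext
  rw [← hgx, h g hg]
  rfl

/-! ### reduction to a countable algebraically closed field -/

theorem countable_of_fg (G : Type*) [Group G] (h : Group.FG G) : Countable G := by
  rw [Group.fg_iff_exists_freeGroup_hom_surjective_finite] at h
  obtain ⟨α, hα, φ, hφ⟩ := h
  have h1 : Countable (FreeGroup α) := by
    unfold FreeGroup
    infer_instance
  exact hφ.countable

theorem blockF_aux (hcore : ∀ (K : Type w) [Field K] [CharZero K] [Countable K] [IsAlgClosed K],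
    Core.{u, w} K) (G : Type u) [Group G] (hfg : Group.FG G) (hF : Folner G)
    (K : Type w) [Field K] [CharZero K] (n : ℕ) (ρ : G →* GL (Fin n) K) :
    ∃ H : Subgroup G, H.FiniteIndex ∧ ∃ N : ℕ, ∀ g ∈ der H N, ρ g = 1 := by
  have hcount : Countable G := countable_of_fg G hfg
  -- the field generated by all entries
  let E : Set K := Set.range fun x : G × Fin n × Fin n => (ρ x.1 : Matrix _ _ K) x.2.1 x.2.2
  have hE : E.Countable := Set.countable_range _
  let k : Subfield K := Subfield.closure E
  have hk : Countable k := by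
    rw [← Cardinal.mk_le_aleph0_iff]
    refine (Subfield.cardinalMk_closure_le_max E).trans ?_
    rw [max_le_iff]
    exact ⟨Cardinal.mk_le_aleph0_iff.2 hE.to_subtype, le_rfl⟩
  have hEk : ∀ g i j, (ρ g : Matrix _ _ K) i j ∈ k := fun g i j =>
    Subfield.subset_closure ⟨(g, i, j), rfl⟩
  let M : G → Matrix (Fin n) (Fin n) k := fun g => Matrix.of fun i j => ⟨_, hEk g i j⟩
  have hM : ∀ g, (M g).map k.subtype = (ρ g : Matrix _ _ K) := fun g => by
    ext i j
    rfl
  have hinj : Function.Injective fun A : Matrix (Fin n) (Fin n) k => A.map k.subtype :=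
    Matrix.map_injective Subtype.val_injective
  obtain ⟨R, hR⟩ : ∃ R : G →* Matrix (Fin n) (Fin n) k, ∀ g, R g = M g :=
    ⟨{ toFun := M
       map_one' := by
        apply hinj
        change (M 1).map k.subtype = (1 : Matrix (Fin n) (Fin n) k).map k.subtype
        rw [hM, map_one, Matrix.map_one _ (map_zero _) (map_one _)]
        rfl
       map_mul' := fun a b => by
        apply hinj
        change (M (a * b)).map k.subtype = (M a * M b).map k.subtype
        rw [Matrix.map_mul, hM, hM, hM, map_mul]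
        rfl }, fun g => rfl⟩
  -- the algebraic closure
  let A := AlgebraicClosure k
  have hA : Countable A := by
    rw [← Cardinal.mk_le_aleph0_iff]
    refine (Algebra.IsAlgebraic.cardinalMk_le_max k A).trans ?_
    rw [max_le_iff]
    exact ⟨Cardinal.mk_le_aleph0_iff.2 hk, le_rfl⟩
  have hA0 : CharZero A := charZero_of_injective_algebraMap (algebraMap k A).injective
  let ρA : G →* Module.End A (Fin n → A) :=
    ((Matrix.toLinAlgEquiv' (R := A) (n := Fin n) : Matrix (Fin n) (Fin n) A →*
      Module.End A (Fin n → A))).comp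
      ((((algebraMap k A).mapMatrix : Matrix (Fin n) (Fin n) k →+* Matrix (Fin n) (Fin n) A) :
        Matrix (Fin n) (Fin n) k →* Matrix (Fin n) (Fin n) A).comp R)
  obtain ⟨H, hH, N, hN⟩ := ind (hcore A) _ G hfg hF (Fin n → A) rfl ρA
  refine ⟨H, hH, N, fun g hg => ?_⟩
  have h1 : ρA g = 1 := hN g hg
  have h2 : (R g).map (algebraMap k A) = 1 := by
    apply (Matrix.toLinAlgEquiv' (R := A) (n := Fin n)).injective
    rw [map_one]
    exact h1
  have h3 : R g = 1 := by
    have hinj2 : Function.Injective fun B : Matrix (Fin n) (Fin n) k => B.map (algebraMap k A) :=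
      Matrix.map_injective (algebraMap k A).injective
    apply hinj2
    change (R g).map (algebraMap k A) = (1 : Matrix (Fin n) (Fin n) k).map (algebraMap k A)
    rw [h2, Matrix.map_one _ (map_zero _) (map_one _)]
  apply Units.ext
  rw [← hM, ← hR, h3, Matrix.map_one _ (map_zero _) (map_one _)]
  rfl

theorem blockF_of
    (hC : Dyn.{u, 0} ℂ) (hp : ∀ (p : ℕ) [Fact p.Prime], Dyn.{u, 0} (PadicAlgCl p))
    (hpl : ∀ (K : Type w) [Field K] [CharZero K] [Countable K] [IsAlgClosed K], Places.{u, w} K)
    (K : Type w) [Field K] [CharZero K] (m : ℕ) (G : Type u) [Group G] (hfg : Group.FG G)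
    (hF : Folner G) (ρ : G →* GL (Fin m) K) :
    ∃ H : Subgroup G, H.FiniteIndex ∧ Group.IsSolvable (H.map ρ) := by
  obtain ⟨H, hH, N, hN⟩ := blockF_aux (fun K => core_of hC hp (hpl K)) G hfg hF K m ρ
  exact ⟨H, hH, solv_of_der ρ H N hN⟩

end Vale.Agent.P260.F
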