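import Vale.Agent.P260.H573.Integ
import Vale.Agent.P260.H573.Red

/-!
# P260, block F2: if all eigenvalues of all elements have the same absolute value at all places,
then the projective image is finite
-/

universe u w

namespace Vale.Agent.P260.F

open Matrix Polynomial

/-- The numerical property of the normalised traces. -/
def Bdd {K : Type*} [Field K] (B : ℝ) (t : K) : Prop :=
  (∀ σ : K →+* ℂ, ‖σ t‖ ≤ B) ∧ ∀ (p : ℕ) [Fact p.Prime] (σ : K →+* PadicAlgCl p), ‖σ t‖ ≤ 1

theorem norm_sum_le_card {L : Type*} [NormedField L] (s : Multiset L) (r : ℝ)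
    (hs : ∀ a ∈ s, ‖a‖ = r) : ‖s.sum‖ ≤ s.card * r := by
  induction s using Multiset.induction_on with
  | empty => simp
  | cons a s ih =>
    rw [Multiset.sum_cons, Multiset.card_cons]
    have h1 := ih fun b hb => hs b (Multiset.mem_cons_of_mem hb)
    have h2 := hs a (Multiset.mem_cons_self _ _)
    push_cast
    calc ‖a + s.sum‖ ≤ ‖a‖ + ‖s.sum‖ := norm_add_le _ _
      _ ≤ (s.card + 1) * r := by rw [h2]; linarith

theorem norm_sum_le_ultra {L : Type*} [NormedField L] [IsUltrametricDist L] (s : Multiset L)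
    (r : ℝ) (hr : 0 ≤ r) (hs : ∀ a ∈ s, ‖a‖ = r) : ‖s.sum‖ ≤ r := by
  induction s using Multiset.induction_on with
  | empty => simpa using hr
  | cons a s ih =>
    rw [Multiset.sum_cons]
    have h1 := ih fun b hb => hs b (Multiset.mem_cons_of_mem hb)
    have h2 := hs a (Multiset.mem_cons_self _ _)
    exact (IsUltrametricDist.norm_add_le_max _ _).trans (max_le h2.le h1)

theorem norm_prod_eq {L : Type*} [NormedField L] (s : Multiset L) (r : ℝ)
    (hs : ∀ a ∈ s, ‖a‖ = r) : ‖s.prod‖ = r ^ s.card := by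
  induction s using Multiset.induction_on with
  | empty => simp
  | cons a s ih =>
    rw [Multiset.prod_cons, Multiset.card_cons, norm_mul,
      ih fun b hb => hs b (Multiset.mem_cons_of_mem hb), hs a (Multiset.mem_cons_self _ _),
      pow_succ, mul_comm]

theorem scaled_norm {K L : Type*} [Field K] [IsAlgClosed K] [NormedField L] (σ : K →+* L) {n : ℕ}
    (hn : 0 < n) (M : Matrix (Fin n) (Fin n) K) (c : K) (hc : c ^ n * M.det = 1)
    (h : ∀ a b : K, M.charpoly.IsRoot a → M.charpoly.IsRoot b → ‖σ a‖ = ‖σ b‖) :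
    ∃ r : ℝ, 0 ≤ r ∧ ‖σ c‖ * r = 1 ∧ (M.charpoly.roots.map σ).card = n ∧
      (∀ a ∈ M.charpoly.roots.map σ, ‖a‖ = r) ∧
      σ (c * M.trace) = σ c * (M.charpoly.roots.map σ).sum := by
  have hcard : M.charpoly.roots.card = n := by
    have h1 := (IsAlgClosed.splits M.charpoly).natDegree_eq_card_roots
    rw [Matrix.charpoly_natDegree_eq_dim, Fintype.card_fin] at h1
    exact h1.symm
  have hne : M.charpoly ≠ 0 := M.charpoly_monic.ne_zero
  obtain ⟨a₀, ha₀⟩ : ∃ a, a ∈ M.charpoly.roots := by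
    rw [← Multiset.card_pos_iff_exists_mem, hcard]
    exact hn
  have hroot : ∀ a, a ∈ M.charpoly.roots → M.charpoly.IsRoot a := fun a ha =>
    (mem_roots hne).1 ha
  have hall : ∀ a ∈ M.charpoly.roots.map σ, ‖a‖ = ‖σ a₀‖ := by
    intro a ha
    obtain ⟨b, hb, rfl⟩ := Multiset.mem_map.1 ha
    exact h b a₀ (hroot b hb) (hroot a₀ ha₀)
  refine ⟨‖σ a₀‖, norm_nonneg _, ?_, by rw [Multiset.card_map, hcard], hall, ?_⟩
  · have h1 : ‖σ M.det‖ = ‖σ a₀‖ ^ n := by
      rw [Matrix.det_eq_prod_roots_charpoly, map_multiset_prod, norm_prod_eq _ _ hall,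
        Multiset.card_map, hcard]
    have h2 : ‖σ (c ^ n * M.det)‖ = 1 := by rw [hc, map_one, norm_one]
    rw [map_mul, map_pow, norm_mul, norm_pow, h1, ← mul_pow] at h2
    exact (pow_eq_one_iff_of_nonneg (by positivity) hn.ne').1 h2
  · rw [map_mul, Matrix.trace_eq_sum_roots_charpoly, map_multiset_sum]

theorem bdd_trace {K : Type*} [Field K] [IsAlgClosed K] {n : ℕ} (hn : 0 < n)
    (M : Matrix (Fin n) (Fin n) K) (c : K) (hc : c ^ n * M.det = 1)
    (hC : ∀ (s : K →+* ℂ) (a b : K), M.charpoly.IsRoot a → M.charpoly.IsRoot b → ‖s a‖ = ‖s b‖)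
    (hp : ∀ (p : ℕ) [Fact p.Prime] (s : K →+* PadicAlgCl p) (a b : K),
      M.charpoly.IsRoot a → M.charpoly.IsRoot b → ‖s a‖ = ‖s b‖) :
    Bdd (n : ℝ) (c * M.trace) := by
  constructor
  · intro σ
    obtain ⟨r, hr, h1, h2, h3, h4⟩ := scaled_norm σ hn M c hc (hC σ)
    have h5 := norm_sum_le_card _ r h3
    rw [h2] at h5
    rw [h4, norm_mul]
    calc ‖σ c‖ * ‖(M.charpoly.roots.map σ).sum‖ ≤ ‖σ c‖ * (n * r) :=
          mul_le_mul_of_nonneg_left h5 (norm_nonneg _)
      _ = n * (‖σ c‖ * r) := by ring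
      _ = n := by rw [h1, mul_one]
  · intro p _ σ
    obtain ⟨r, hr, h1, h2, h3, h4⟩ := scaled_norm σ hn M c hc (hp p σ)
    have h5 := norm_sum_le_ultra _ r hr h3
    rw [h4, norm_mul]
    calc ‖σ c‖ * ‖(M.charpoly.roots.map σ).sum‖ ≤ ‖σ c‖ * r :=
          mul_le_mul_of_nonneg_left h5 (norm_nonneg _)
      _ = 1 := h1

/-- The trace form is nondegenerate. -/
theorem eq_zero_of_trace {K : Type*} [Field K] {n : ℕ} (A : Matrix (Fin n) (Fin n) K)
    (h : ∀ B : Matrix (Fin n) (Fin n) K, (A * B).trace = 0) : A = 0 := by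
  ext i j
  have h1 := h (Matrix.single j i 1)
  simpa [Matrix.trace, Matrix.mul_apply, Matrix.single, ite_and] using h1

theorem eq_zero_of_trace_basis {K : Type*} [Field K] {n : ℕ} {ι : Type*} [Fintype ι]
    (b : Module.Basis ι K (Matrix (Fin n) (Fin n) K)) (A : Matrix (Fin n) (Fin n) K)
    (h : ∀ j, (A * b j).trace = 0) : A = 0 := by
  refine eq_zero_of_trace A fun B => ?_
  rw [← b.sum_repr B, Finset.mul_sum, Matrix.trace_sum]
  refine Finset.sum_eq_zero fun j _ => ?_
  rw [mul_smul_comm, Matrix.trace_smul, h, smul_zero]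

theorem exists_coeff {K : Type*} [Field K] [CharZero K] {n : ℕ} {ι : Type*} [Fintype ι]
    (b : Module.Basis ι K (Matrix (Fin n) (Fin n) K)) (F : IntermediateField ℚ K)
    (hτ : ∀ k j, (b k * b j).trace ∈ F) (A : Matrix (Fin n) (Fin n) K)
    (hA : ∀ j, (A * b j).trace ∈ F) : ∃ a : ι → K, (∀ k, a k ∈ F) ∧ A = ∑ k, a k • b k := by
  classical
  let τ0 : Matrix ι ι F := Matrix.of fun k j => ⟨_, hτ k j⟩
  let v0 : ι → F := fun j => ⟨_, hA j⟩
  have hdet : τ0.det ≠ 0 := by
    intro h0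
    obtain ⟨w, hw0, hw⟩ := Matrix.exists_vecMul_eq_zero_iff.2 h0
    apply hw0
    have h1 : ∑ k, (w k : K) • b k = 0 := by
      refine eq_zero_of_trace_basis b _ fun j => ?_
      rw [Finset.sum_mul, Matrix.trace_sum]
      have h2 : (((w ᵥ* τ0) j : F) : K) = 0 := by rw [hw]; rfl
      rw [← h2]
      simp only [Matrix.vecMul, dotProduct]
      push_cast
      refine Finset.sum_congr rfl fun k _ => ?_
      rw [smul_mul_assoc, Matrix.trace_smul]
      rfl
    have h3 := Fintype.linearIndependent_iff.1 b.linearIndependent _ h1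
    funext k
    exact Subtype.ext (h3 k)
  let a0 : ι → F := v0 ᵥ* τ0⁻¹
  have ha0 : a0 ᵥ* τ0 = v0 := by
    rw [Matrix.vecMul_vecMul, Matrix.nonsing_inv_mul _ (Ne.isUnit hdet), Matrix.vecMul_one]
  refine ⟨fun k => (a0 k : K), fun k => (a0 k).2, ?_⟩
  rw [← sub_eq_zero]
  refine eq_zero_of_trace_basis b _ fun j => ?_
  rw [sub_mul, Matrix.trace_sub, Finset.sum_mul, Matrix.trace_sum, sub_eq_zero]
  have h2 : (((a0 ᵥ* τ0) j : F) : K) = (A * b j).trace := by rw [ha0]
  rw [← h2]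
  simp only [Matrix.vecMul, dotProduct]
  push_cast
  refine Finset.sum_congr rfl fun k _ => ?_
  rw [smul_mul_assoc, Matrix.trace_smul]
  rfl

theorem trace_step {K : Type*} [Field K] [CharZero K] {n : ℕ} {ι : Type*} [Fintype ι]
    (b : Module.Basis ι K (Matrix (Fin n) (Fin n) K)) (F : IntermediateField ℚ K)
    (hτ : ∀ k j, (b k * b j).trace ∈ F) (A : Matrix (Fin n) (Fin n) K)
    (hA : ∀ j, (A * b j).trace ∈ F) (m : Matrix (Fin n) (Fin n) K)
    (hm : ∀ k j, (b k * m * b j).trace ∈ F) (j : ι) : (A * m * b j).trace ∈ F := by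
  obtain ⟨a, ha, rfl⟩ := exists_coeff b F hτ A hA
  rw [Finset.sum_mul, Finset.sum_mul, Matrix.trace_sum]
  refine F.sum_mem fun k _ => ?_
  rw [smul_mul_assoc, smul_mul_assoc, Matrix.trace_smul, smul_eq_mul]
  exact F.mul_mem (ha k) (hm k j)

/-- **Places**. -/
theorem places (K : Type w) [Field K] [CharZero K] [Countable K] [IsAlgClosed K] :
    Places.{u, w} K := by
  intro G _ hfg n ρ hsp hC hp
  rcases Nat.eq_zero_or_pos n with rfl | hn
  · exact ⟨⊤, inferInstance, fun h _ => ⟨1, Subsingleton.elim _ _⟩⟩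
  -- scaling
  have hdet : ∀ g, (ρ g : Matrix (Fin n) (Fin n) K).det ≠ 0 := fun g =>
    (Matrix.isUnit_iff_isUnit_det _).1 (ρ g).isUnit |>.ne_zero
  have hsc : ∀ g, ∃ c : K, c ^ n * (ρ g : Matrix (Fin n) (Fin n) K).det = 1 := by
    intro g
    obtain ⟨z, hz⟩ := IsAlgClosed.exists_pow_nat_eq
      ((ρ g : Matrix (Fin n) (Fin n) K).det)⁻¹ hn
    exact ⟨z, by rw [hz, inv_mul_cancel₀ (hdet g)]⟩
  choose c hc using hsc
  have hc0 : ∀ g, c g ≠ 0 := by
    intro g h0
    have := hc g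
    rw [h0, zero_pow hn.ne', zero_mul] at this
    exact zero_ne_one this
  have hbdd : ∀ (g : G) (z : K), z ^ n * (ρ g : Matrix (Fin n) (Fin n) K).det = 1 →
      Bdd (n : ℝ) (z * (ρ g : Matrix (Fin n) (Fin n) K).trace) := fun g z hz =>
    bdd_trace hn _ z hz (fun s => hC s g) (fun p _ s => hp p s g)
  have hmul : ∀ (g h : G) (z w : K), z ^ n * (ρ g : Matrix (Fin n) (Fin n) K).det = 1 →
      w ^ n * (ρ h : Matrix (Fin n) (Fin n) K).det = 1 →
      (z * w) ^ n * (ρ (g * h) : Matrix (Fin n) (Fin n) K).det = 1 := by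
    intro g h z w hz hw
    rw [map_mul, Units.val_mul, Matrix.det_mul]
    calc (z * w) ^ n * ((ρ g : Matrix (Fin n) (Fin n) K).det *
          (ρ h : Matrix (Fin n) (Fin n) K).det) =
          (z ^ n * (ρ g : Matrix (Fin n) (Fin n) K).det) *
          (w ^ n * (ρ h : Matrix (Fin n) (Fin n) K).det) := by ring
      _ = 1 := by rw [hz, hw, one_mul]
  -- a basis of scaled elements
  obtain ⟨b0, hb0⟩ : ∃ s : Module.Basis _ K (Matrix (Fin n) (Fin n) K), Set.range s ⊆
      Set.range (fun g : G => (ρ g : Matrix (Fin n) (Fin n) K)) :=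
    ⟨Module.Basis.ofSpan hsp.ge, Module.Basis.ofSpan_subset hsp.ge⟩
  obtain ⟨I, hI⟩ : ∃ I, I = ↥((linearIndepOn_empty K id).extend (Set.empty_subset
    (Set.range fun g : G => (ρ g : Matrix (Fin n) (Fin n) K)))) := ⟨_, rfl⟩
  subst hI
  have hfin := Module.Finite.finite_basis b0
  let _ := Fintype.ofFinite (↥((linearIndepOn_empty K id).extend (Set.empty_subset
    (Set.range fun g : G => (ρ g : Matrix (Fin n) (Fin n) K)))))
  have hu : ∀ i, ∃ g : G, (ρ g : Matrix (Fin n) (Fin n) K) = b0 i := fun i => hb0 ⟨i, rfl⟩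
  choose u hu using hu
  let m : G → Matrix (Fin n) (Fin n) K := fun g => c g • (ρ g : Matrix (Fin n) (Fin n) K)
  let b := b0.unitsSMul fun i => Units.mk0 (c (u i)) (hc0 _)
  have hb : ∀ i, b i = m (u i) := by
    intro i
    simp only [b, m, Module.Basis.unitsSMul_apply, hu]
    rfl
  have hmm : ∀ (g h : G) (z w : K), (z • (ρ g : Matrix (Fin n) (Fin n) K)) *
      (w • (ρ h : Matrix (Fin n) (Fin n) K)) =
      (z * w) • (ρ (g * h) : Matrix (Fin n) (Fin n) K) := by
    intro g h z w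
    rw [map_mul, Units.val_mul, smul_mul_smul_comm]
  have hbm : ∀ (g : G) (z : K), z ^ n * (ρ g : Matrix (Fin n) (Fin n) K).det = 1 → ∀ j,
      Bdd (n : ℝ) (((z • (ρ g : Matrix (Fin n) (Fin n) K)) * b j).trace) := by
    intro g z hz j
    rw [hb, hmm, Matrix.trace_smul, smul_eq_mul]
    exact hbdd _ _ (hmul _ _ _ _ hz (hc _))
  have halg : ∀ t : K, Bdd (n : ℝ) t → IsIntegral ℚ t := fun t ht =>
    (isAlgebraic_of_bdd t n ht.1).isIntegral
  -- the finite set of generators of the trace field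
  obtain ⟨S, hS, hSfin⟩ := Monoid.fg_iff.1 (Group.fg_iff_monoid_fg.1 hfg)
  have hSf : Finite S := hSfin
  let Θ1 : Set K := Set.range fun x : _ × _ => (b x.1 * b x.2).trace
  let Θ2 : Set K := Set.range fun j => (b j).trace
  let Θ3 : Set K := Set.range fun x : _ × S × _ => (b x.1 * m x.2.1 * b x.2.2).trace
  let Θ4 : Set K := {z | z ^ n = 1}
  have hΘ4 : Θ4.Finite := by
    classical
    refine ((Polynomial.nthRoots n (1 : K)).toFinset.finite_toSet).subset ?_
    intro z hz
    rw [Finset.mem_coe, Multiset.mem_toFinset, Polynomial.mem_nthRoots hn]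
    exact hz
  let Θ : Set K := Θ1 ∪ Θ2 ∪ Θ3 ∪ Θ4
  have hΘfin : Finite Θ :=
    ((((Set.finite_range _).union (Set.finite_range _)).union (Set.finite_range _)).union hΘ4)
  have hΘint : ∀ x ∈ Θ, IsIntegral ℚ x := by
    intro x hx
    rcases hx with ((hx | hx) | hx) | hx
    · obtain ⟨⟨k, j⟩, rfl⟩ := hx
      refine halg _ ?_
      have := hbm (u k) (c (u k)) (hc _) j
      change Bdd (n : ℝ) ((b k * b j).trace)
      rw [hb k]
      exact this
    · obtain ⟨j, rfl⟩ := hx
      refine halg _ ?_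
      have := hbm 1 1 (by simp) j
      simpa using this
    · obtain ⟨⟨k, s, j⟩, rfl⟩ := hx
      refine halg _ ?_
      have := hbm (u k * s) (c (u k) * c s) (hmul _ _ _ _ (hc _) (hc _)) j
      rw [← hmm] at this
      change Bdd (n : ℝ) ((b k * m s * b j).trace)
      rw [hb k]
      exact this
    · refine IsIntegral.of_pow hn ?_
      have hx' : x ^ n = 1 := hx
      rw [hx']
      exact isIntegral_one
  let F := IntermediateField.adjoin ℚ Θ
  have hFfin : FiniteDimensional ℚ F := IntermediateField.finiteDimensional_adjoin hΘint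
  have hsub : ∀ x ∈ Θ, x ∈ F := fun x hx => IntermediateField.subset_adjoin ℚ Θ hx
  have hF1 : ∀ k j, (b k * b j).trace ∈ F := fun k j =>
    hsub _ (Or.inl (Or.inl (Or.inl ⟨(k, j), rfl⟩)))
  have hF2 : ∀ j, (b j).trace ∈ F := fun j => hsub _ (Or.inl (Or.inl (Or.inr ⟨j, rfl⟩)))
  have hF3 : ∀ k, ∀ s ∈ S, ∀ j, (b k * m s * b j).trace ∈ F := fun k s hs j =>
    hsub _ (Or.inl (Or.inr ⟨(k, ⟨s, hs⟩, j), rfl⟩))
  have hF4 : ∀ z : K, z ^ n = 1 → z ∈ F := fun z hz => hsub _ (Or.inr hz)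
  have key : ∀ g : G, ∀ z : K, z ^ n * (ρ g : Matrix (Fin n) (Fin n) K).det = 1 → ∀ j,
      ((z • (ρ g : Matrix (Fin n) (Fin n) K)) * b j).trace ∈ F := by
    intro g
    have hg : g ∈ Submonoid.closure S := by rw [hS]; exact Submonoid.mem_top g
    induction hg using Submonoid.closure_induction_right with
    | one =>
      intro z hz j
      rw [map_one, Units.val_one, Matrix.det_one, mul_one] at hz
      rw [map_one, Units.val_one, smul_mul_assoc, one_mul, Matrix.trace_smul, smul_eq_mul]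
      exact F.mul_mem (hF4 z hz) (hF2 j)
    | mul_right g hg s hs ih =>
      intro z hz j
      have h1 : (z * (c s)⁻¹) ^ n * (ρ g : Matrix (Fin n) (Fin n) K).det = 1 := by
        have h2 := hc s
        have h3 : (c s) ^ n ≠ 0 := pow_ne_zero _ (hc0 s)
        rw [map_mul, Units.val_mul, Matrix.det_mul] at hz
        rw [mul_pow, inv_pow]
        have h4 : (ρ s : Matrix (Fin n) (Fin n) K).det = ((c s) ^ n)⁻¹ := by
          exact eq_inv_of_mul_eq_one_right h2
        rw [h4] at hz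
        rw [← hz]
        ring
      have h5 : z • (ρ (g * s) : Matrix (Fin n) (Fin n) K) =
          ((z * (c s)⁻¹) • (ρ g : Matrix (Fin n) (Fin n) K)) * m s := by
        rw [hmm, inv_mul_cancel_right₀ (hc0 s)]
      rw [h5]
      exact trace_step b F hF1 _ (ih _ h1) _ (fun k j => hF3 k s hs j) j
  -- finitely many scaled matrices
  have hX := finite_bdd F (n : ℝ)
  let X := {t : F | (∀ σ : K →+* ℂ, ‖σ (t : K)‖ ≤ (n : ℝ)) ∧
      ∀ (p : ℕ) [Fact p.Prime] (σ : K →+* PadicAlgCl p), ‖σ (t : K)‖ ≤ 1}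
  have hXfin : Finite X := hX
  let x : G → (_ → X) := fun g j => ⟨⟨(m g * b j).trace, key g (c g) (hc g) j⟩,
    hbm g (c g) (hc g) j⟩
  have hxm : ∀ g h, x g = x h → m g = m h := by
    intro g h hgh
    rw [← sub_eq_zero]
    refine eq_zero_of_trace_basis b _ fun j => ?_
    rw [sub_mul, Matrix.trace_sub, sub_eq_zero]
    have h1 := congrFun hgh j
    exact congrArg (fun y : X => ((y : F) : K)) h1
  have hn0 : Nonempty (Fin n) := ⟨⟨0, hn⟩⟩
  let H : Subgroup G :=
    { carrier := {g | ∃ z : K, (ρ g : Matrix (Fin n) (Fin n) K) = z • 1}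
      one_mem' := ⟨1, by simp⟩
      mul_mem' := by
        rintro g h ⟨z, hz⟩ ⟨w, hw⟩
        refine ⟨z * w, ?_⟩
        rw [map_mul, Units.val_mul, hz, hw, smul_mul_smul_comm, one_mul]
      inv_mem' := by
        rintro g ⟨z, hz⟩
        have h1 : (ρ g : Matrix (Fin n) (Fin n) K) * (ρ g⁻¹ : Matrix (Fin n) (Fin n) K) = 1 := by
          rw [← Units.val_mul, ← map_mul, mul_inv_cancel, map_one, Units.val_one]
        rw [hz, smul_mul_assoc, one_mul] at h1
        have hz0 : z ≠ 0 := by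
          rintro rfl
          rw [zero_smul] at h1
          exact zero_ne_one h1
        refine ⟨z⁻¹, ?_⟩
        rw [← h1, smul_smul, inv_mul_cancel₀ hz0, one_smul] }
  refine ⟨H, ?_, fun h hh => hh⟩
  have hq : Finite (G ⧸ H) := by
    refine Finite.of_injective (fun q : G ⧸ H => x q.out) ?_
    intro q q' hqq
    have h1 := hxm _ _ hqq
    rw [← QuotientGroup.out_eq' q, ← QuotientGroup.out_eq' q', QuotientGroup.eq]
    refine ⟨(c q'.out)⁻¹ * c q.out, ?_⟩
    have h2 : (ρ q'.out : Matrix (Fin n) (Fin n) K) =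
        ((c q'.out)⁻¹ * c q.out) • (ρ q.out : Matrix (Fin n) (Fin n) K) := by
      rw [mul_smul]
      change _ = (c q'.out)⁻¹ • m q.out
      rw [h1]
      change _ = (c q'.out)⁻¹ • c q'.out • _
      rw [smul_smul, inv_mul_cancel₀ (hc0 _), one_smul]
    rw [map_mul, Units.val_mul, h2, mul_smul_comm, ← Units.val_mul, ← map_mul, inv_mul_cancel,
      map_one, Units.val_one]
  exact Subgroup.finiteIndex_of_finite_quotient

end Vale.Agent.P260.F
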